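import Crest.Agent.X262.St91.Defs2
import Crest.Agent.X262.Brg.Cubic

-- ▼ part X262/St91/Nf0
section

/-!
# Row 262, G4 / START (helper91): the projection of `G(2,6)` from a rational normal quartic

`V = ℂ³ ⊕ ℂ³`, the curve is `(a, 0) ∧ (0, a)`, `a = (t₀², t₀ t₁, t₁²)`.

* `yz P`  : the ten linear forms which vanish on the curve, `c = (y; z₀; z₁; z₂)`;
* `gU c`  : the quartic which vanishes on the image, `fU c ∧ fV c` the inverse map;
* `AA c`  : four linear forms which vanish on the plane;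
* `par_of_ker` : two points of a surface without lines in a space of dimension three agree.
-/

set_option autoImplicit false

open MvPolynomial

noncomputable section

namespace Crest.Agent.X262.St91

open Crest.Agent.X262.Pf19 (Om Skew NoLine)

section Ring

variable {R R' : Type} [CommRing R] [CommRing R']

/-- the cross product -/
def cr (a b : Fin 3 → R) : Fin 3 → R :=
  ![a 1 * b 2 - a 2 * b 1, a 2 * b 0 - a 0 * b 2, a 0 * b 1 - a 1 * b 0]

/-- the three covectors -/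
def zz (c : Fin 10 → R) : Fin 3 → Fin 3 → R := ![![c 1, c 2, c 3], ![c 4, c 5, c 6], ![c 7, c 8, c 9]]

/-- the adjugate -/
def nn (c : Fin 10 → R) : Fin 3 → Fin 3 → R :=
  ![cr (zz c 1) (zz c 2), cr (zz c 2) (zz c 0), cr (zz c 0) (zz c 1)]

/-- the determinant -/
def dd (c : Fin 10 → R) : R := c 1 * nn c 0 0 + c 2 * nn c 0 1 + c 3 * nn c 0 2

/-- the conic -/
def qq (a b : Fin 3 → R) : R := a 0 * b 2 + a 2 * b 0 - 2 * (a 1 * b 1)

/-- the universal quartic -/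
def gU (c : Fin 10 → R) : R := c 0 * dd c + qq (nn c 1) (nn c 1) - qq (nn c 0) (nn c 2)

/-- the first vector of the plane -/
def fU (c : Fin 10 → R) : Fin 6 → R :=
  ![nn c 1 0, nn c 1 1, nn c 1 2, -nn c 0 0, -nn c 0 1, -nn c 0 2]

/-- the second vector of the plane -/
def fV (c : Fin 10 → R) : Fin 6 → R :=
  ![nn c 2 0, nn c 2 1, nn c 2 2, -nn c 1 0, -nn c 1 1, -nn c 1 2]

/-- the linear forms which vanish on the plane -/
def AA (c : Fin 10 → R) : Fin 4 → Fin 6 → R :=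
  ![![c 1, c 2, c 3, 0, 0, 0], ![c 4, c 5, c 6, c 1, c 2, c 3], ![c 7, c 8, c 9, c 4, c 5, c 6],
    ![0, 0, 0, c 7, c 8, c 9]]

/-- the projection -/
def yz (P : I2 → R) : Fin 10 → R :=
  ![P (0, 5) + P (2, 3) - 2 * P (1, 4), P (1, 2), P (2, 0), P (0, 1), P (1, 5) - P (2, 4),
    P (2, 3) - P (0, 5), P (0, 4) - P (1, 3), P (4, 5), P (5, 3), P (3, 4)]

/-- the first vector of the curve -/
def aU (t : Fin 2 → R) : Fin 6 → R := ![t 0 * t 0, t 0 * t 1, t 1 * t 1, 0, 0, 0]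

/-- the second vector of the curve -/
def aV (t : Fin 2 → R) : Fin 6 → R := ![0, 0, 0, t 0 * t 0, t 0 * t 1, t 1 * t 1]

/-- the values of the three covectors on the conic -/
def za (c : Fin 10 → R) (t : Fin 2 → R) : Fin 3 → R :=
  ![c 1 * (t 0 * t 0) + c 2 * (t 0 * t 1) + c 3 * (t 1 * t 1),
    c 4 * (t 0 * t 0) + c 5 * (t 0 * t 1) + c 6 * (t 1 * t 1),
    c 7 * (t 0 * t 0) + c 8 * (t 0 * t 1) + c 9 * (t 1 * t 1)]

/-- a determinant of order three -/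
def d3 (a b c : Fin 3 → R) : R := a 0 * cr b c 0 + a 1 * cr b c 1 + a 2 * cr b c 2

/-- the relation between four vectors of a space of dimension three -/
def x4 (m : Fin 4 → Fin 3 → R) : Fin 4 → R :=
  ![d3 (m 1) (m 2) (m 3), -d3 (m 0) (m 2) (m 3), d3 (m 0) (m 1) (m 3), -d3 (m 0) (m 1) (m 2)]

theorem x4_rel (m : Fin 4 → Fin 3 → R) (r : Fin 3) : ∑ k, x4 m k * m k r = 0 := by
  fin_cases r <;> simp [Fin.sum_univ_four, x4, d3, cr] <;> ring

theorem x4_par (m : Fin 4 → Fin 3 → R) {x : Fin 4 → R} (h : ∀ r, ∑ k, x k * m k r = 0) (i j : Fin 4) :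
    x i * x4 m j = x j * x4 m i := by
  have H : ∀ k l, cr (m k) (m l) 0 * ∑ k, x k * m k 0 + cr (m k) (m l) 1 * ∑ k, x k * m k 1 +
      cr (m k) (m l) 2 * ∑ k, x k * m k 2 = 0 := fun k l => by simp only [h, mul_zero, add_zero]
  have k01 : x 0 * x4 m 1 = x 1 * x4 m 0 := by
    have := H 2 3
    simp [x4, d3, cr, Fin.sum_univ_four] at this ⊢
    linear_combination -this
  have k02 : x 0 * x4 m 2 = x 2 * x4 m 0 := by
    have := H 1 3
    simp [x4, d3, cr, Fin.sum_univ_four] at this ⊢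
    linear_combination this
  have k03 : x 0 * x4 m 3 = x 3 * x4 m 0 := by
    have := H 1 2
    simp [x4, d3, cr, Fin.sum_univ_four] at this ⊢
    linear_combination -this
  have k12 : x 1 * x4 m 2 = x 2 * x4 m 1 := by
    have := H 0 3
    simp [x4, d3, cr, Fin.sum_univ_four] at this ⊢
    linear_combination -this
  have k13 : x 1 * x4 m 3 = x 3 * x4 m 1 := by
    have := H 0 2
    simp [x4, d3, cr, Fin.sum_univ_four] at this ⊢
    linear_combination this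
  have k23 : x 2 * x4 m 3 = x 3 * x4 m 2 := by
    have := H 0 1
    simp [x4, d3, cr, Fin.sum_univ_four] at this ⊢
    linear_combination -this
  fin_cases i <;> fin_cases j
  exacts [rfl, k01, k02, k03, k01.symm, rfl, k12, k13, k02.symm, k12.symm, rfl, k23, k03.symm,
    k13.symm, k23.symm, rfl]

theorem AA_left (u v : Fin 6 → R) (r : Fin 4) : ∑ m, AA (yz (Pf19.wd u v)) r m * u m = 0 := by
  fin_cases r <;> simp [Fin.sum_univ_six, AA, yz, Pf19.wd] <;> ring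

theorem AA_right (u v : Fin 6 → R) (r : Fin 4) : ∑ m, AA (yz (Pf19.wd u v)) r m * v m = 0 := by
  fin_cases r <;> simp [Fin.sum_univ_six, AA, yz, Pf19.wd] <;> ring

theorem AA_fU (c : Fin 10 → R) (r : Fin 4) : ∑ m, AA c r m * fU c m = 0 := by
  fin_cases r <;> simp [Fin.sum_univ_six, AA, fU, nn, cr, zz] <;> ring

theorem AA_fV (c : Fin 10 → R) (r : Fin 4) : ∑ m, AA c r m * fV c m = 0 := by
  fin_cases r <;> simp [Fin.sum_univ_six, AA, fV, nn, cr, zz] <;> ring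

theorem gU_yz (u v : Fin 6 → R) : gU (yz (Pf19.wd u v)) = 0 := by
  simp [gU, dd, qq, nn, cr, zz, yz, Pf19.wd]
  ring

theorem yz_psi {c : Fin 10 → R} (h : gU c = 0) : yz (Pf19.wd (fU c) (fV c)) = dd c • c := by
  funext i
  simp only [gU, dd, qq, nn, cr, zz] at h
  fin_cases i <;> simp [yz, Pf19.wd, fU, fV, dd, nn, cr, zz] at h ⊢
  · linear_combination -h
  all_goals ring

theorem yz_a (t : Fin 2 → R) : yz (Pf19.wd (aU t) (aV t)) = 0 := by
  funext i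
  fin_cases i <;> simp [yz, Pf19.wd, aU, aV] <;> ring

theorem AA_a (c : Fin 10 → R) (t : Fin 2 → R) (h : za c t = 0) (r : Fin 4) :
    ∑ m, AA c r m * aU t m = 0 ∧ ∑ m, AA c r m * aV t m = 0 := by
  have h0 := congrFun h 0
  have h1 := congrFun h 1
  have h2 := congrFun h 2
  simp [za] at h0 h1 h2
  fin_cases r <;> simp [Fin.sum_univ_six, AA, aU, aV, h0, h1, h2]

/-- a linear map with complex coefficients -/
def lr [Algebra ℂ R] {ι κ : Type} [Fintype κ] (π : ι → κ → ℂ) (P : κ → R) (i : ι) : R :=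
  ∑ j, algebraMap ℂ R (π i j) * P j

theorem eval_lr {σ ι κ : Type} [Fintype κ] (π : ι → κ → ℂ) (P : κ → MvPolynomial σ ℂ) (x : σ → ℂ)
    (i : ι) : eval x (lr π P i) = ln π (fun j => eval x (P j)) i := by
  simp [lr, ln]

end Ring

section Hom

variable {σ : Type}

/-- a vector of forms of degree `d` -/
def Hg {ι : Type} (d : ℕ) (v : ι → MvPolynomial σ ℂ) : Prop := ∀ i, (v i).IsHomogeneous d

theorem Hg.lr {ι κ : Type} [Fintype κ] (π : ι → κ → ℂ) {d : ℕ} {P : κ → MvPolynomial σ ℂ}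
    (h : Hg d P) : Hg d (lr π P) := fun _ =>
  IsHomogeneous.sum _ _ _ fun j _ => (h j).C_mul _

theorem Hg.wd {ι : Type} {d e : ℕ} {u v : ι → MvPolynomial σ ℂ} (h : Hg d u) (h' : Hg e v) :
    Hg (d + e) (Pf19.wd u v) := fun _ => ((h _).mul (h' _)).sub ((h _).mul (h' _))

theorem Hg.cr {d e : ℕ} {u v : Fin 3 → MvPolynomial σ ℂ} (h : Hg d u) (h' : Hg e v) :
    Hg (d + e) (cr u v) := fun i => by
  fin_cases i <;> exact ((h _).mul (h' _)).sub ((h _).mul (h' _))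

theorem Hg.zz {c : Fin 10 → MvPolynomial σ ℂ} (h : Hg 1 c) (k : Fin 3) : Hg 1 (zz c k) :=
  fun i => by fin_cases k <;> fin_cases i <;> exact h _

theorem Hg.nn {c : Fin 10 → MvPolynomial σ ℂ} (h : Hg 1 c) (k : Fin 3) : Hg 2 (nn c k) := by
  fin_cases k <;> exact (h.zz _).cr (h.zz _)

theorem Hg.dd {c : Fin 10 → MvPolynomial σ ℂ} (h : Hg 1 c) : (dd c).IsHomogeneous 3 :=
  (((h _).mul (h.nn _ _)).add ((h _).mul (h.nn _ _))).add ((h _).mul (h.nn _ _))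

theorem Hg.fU {c : Fin 10 → MvPolynomial σ ℂ} (h : Hg 1 c) : Hg 2 (fU c) := fun i => by
  fin_cases i
  exacts [h.nn 1 0, h.nn 1 1, h.nn 1 2, (h.nn 0 0).neg, (h.nn 0 1).neg, (h.nn 0 2).neg]

theorem Hg.fV {c : Fin 10 → MvPolynomial σ ℂ} (h : Hg 1 c) : Hg 2 (fV c) := fun i => by
  fin_cases i
  exacts [h.nn 2 0, h.nn 2 1, h.nn 2 2, (h.nn 1 0).neg, (h.nn 1 1).neg, (h.nn 1 2).neg]

theorem hg_X : Hg 1 (X : σ → MvPolynomial σ ℂ) := isHomogeneous_X ℂ

theorem hg_aU : Hg 2 (aU (X : Fin 2 → MvPolynomial (Fin 2) ℂ)) := fun i => by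
  fin_cases i
  exacts [(hg_X 0).mul (hg_X 0), (hg_X 0).mul (hg_X 1), (hg_X 1).mul (hg_X 1),
    isHomogeneous_zero _ _ _, isHomogeneous_zero _ _ _, isHomogeneous_zero _ _ _]

theorem hg_aV : Hg 2 (aV (X : Fin 2 → MvPolynomial (Fin 2) ℂ)) := fun i => by
  fin_cases i
  exacts [isHomogeneous_zero _ _ _, isHomogeneous_zero _ _ _, isHomogeneous_zero _ _ _,
    (hg_X 0).mul (hg_X 0), (hg_X 0).mul (hg_X 1), (hg_X 1).mul (hg_X 1)]

theorem Hg.x4 {m : Fin 4 → Fin 3 → MvPolynomial σ ℂ} (h : ∀ k, Hg 2 (m k)) : Hg 6 (x4 m) := by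
  have h3 : ∀ i j k, (d3 (m i) (m j) (m k)).IsHomogeneous 6 := fun i j k =>
    (((h i 0).mul ((h j).cr (h k) 0)).add ((h i 1).mul ((h j).cr (h k) 1))).add
      ((h i 2).mul ((h j).cr (h k) 2))
  intro i
  fin_cases i
  exacts [h3 _ _ _, (h3 _ _ _).neg, h3 _ _ _, (h3 _ _ _).neg]

end Hom

/-! ### complex points -/

theorem gU_of_za {c : Fin 10 → ℂ} {t : Fin 2 → ℂ} (ht : t ≠ 0) (h : za c t = 0) : gU c = 0 := by
  have h0 := congrFun h 0
  have h1 := congrFun h 1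
  have h2 := congrFun h 2
  simp [za] at h0 h1 h2
  by_cases h3 : t 0 = 0
  · have h4 : t 1 ≠ 0 := fun h4 => ht (funext (Fin.forall_fin_two.2 ⟨h3, h4⟩))
    simp [h3, h4] at h0 h1 h2
    simp [gU, dd, qq, nn, cr, zz, h0, h1, h2]
  · obtain ⟨s, hs⟩ : ∃ s, t 1 = s * t 0 := ⟨t 1 / t 0, by field_simp⟩
    have h4 := mul_ne_zero h3 h3
    have e1 : c 1 = -s * c 2 - s * s * c 3 :=
      mul_right_cancel₀ h4 (by rw [hs] at h0; linear_combination h0)
    have e2 : c 4 = -s * c 5 - s * s * c 6 :=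
      mul_right_cancel₀ h4 (by rw [hs] at h1; linear_combination h1)
    have e3 : c 7 = -s * c 8 - s * s * c 9 :=
      mul_right_cancel₀ h4 (by rw [hs] at h2; linear_combination h2)
    simp [gU, dd, qq, nn, cr, zz, e1, e2, e3]
    ring

theorem exists_frame {om : Fin 6 → I2 → ℂ} {P : I2 → ℂ} (h : OnS om P) :
    ∃ u v, P = Pf19.wd u v := by
  obtain ⟨⟨i, j⟩, hij⟩ := Function.ne_iff.1 h.ne
  replace hij : P (i, j) ≠ 0 := hij
  refine ⟨fun k => P (i, k) / P (i, j), fun k => P (j, k), funext fun ⟨k, l⟩ => ?_⟩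
  simp only [Pf19.wd]
  field_simp
  linear_combination h.plk i j k l

theorem ons_wd {om : Fin 6 → I2 → ℂ} {u v : Fin 6 → ℂ} (h0 : Pf19.wd u v ≠ 0)
    (h : ln om (Pf19.wd u v) = 0) : OnS om (Pf19.wd u v) :=
  ⟨h0, fun i j => by simp only [Pf19.wd]; ring, fun i j k l => by simp only [Pf19.wd]; ring, h⟩

theorem ln_wd {ω : Om} (hs : Skew ω) (u v : Fin 6 → ℂ) :
    ln (omI ω) (Pf19.wd u v) = (2 : ℂ) • Pf19.w ω u v := by
  rw [two_smul]
  nth_rw 2 [← neg_neg (Pf19.w ω u v)]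
  rw [← hs.swap]
  funext a
  simp only [ln, omI, Pf19.wd, Fintype.sum_prod_type, Pi.add_apply, Pi.neg_apply, Pf19.w_apply,
    ← Finset.sum_neg_distrib, ← Finset.sum_add_distrib]
  exact Finset.sum_congr rfl fun i _ => Finset.sum_congr rfl fun j _ => by simp; ring

theorem exists_det {a b : ℂ} (h : ¬(a = 0 ∧ b = 0)) : ∃ c d : ℂ, a * d - b * c = 1 := by
  by_cases ha : a = 0
  · have hb : b ≠ 0 := fun hb => h ⟨ha, hb⟩
    exact ⟨-b⁻¹, 0, by field_simp; ring⟩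
  · exact ⟨0, a⁻¹, by field_simp; ring⟩

theorem wd_eq_zero {u v : Fin 6 → ℂ} {a b : ℂ} (h : ¬(a = 0 ∧ b = 0)) (h1 : a • u + b • v = 0) :
    Pf19.wd u v = 0 := by
  obtain ⟨c, d, e⟩ := exists_det h
  funext ⟨i, j⟩
  have h2 := congrFun h1 i
  have h3 := congrFun h1 j
  simp only [Pi.add_apply, Pi.smul_apply, smul_eq_mul, Pi.zero_apply, Pf19.wd] at h2 h3 ⊢
  linear_combination (c * u j + d * v j) * h2 - (c * u i + d * v i) * h3 -
    (u i * v j - u j * v i) * e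

/-- two planes which meet -/
theorem par_of_dep {ω : Om} (hs : Skew ω) (hl : NoLine ℂ ω) {u v u' v' : Fin 6 → ℂ}
    (h : OnS (omI ω) (Pf19.wd u v)) (h' : OnS (omI ω) (Pf19.wd u' v'))
    (hd : ¬LinearIndependent ℂ ![u, v, u', v']) : Par (Pf19.wd u v) (Pf19.wd u' v') := by
  obtain ⟨c, h1, i, h2⟩ := Fintype.not_linearIndependent_iff.1 hd
  simp only [Fin.sum_univ_four, Matrix.cons_val] at h1
  have a1 : ¬(c 0 = 0 ∧ c 1 = 0) := fun ⟨e0, e1⟩ => h'.ne (wd_eq_zero (a := c 2) (b := c 3)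
    (fun ⟨e2, e3⟩ => h2 (by fin_cases i <;> assumption)) (by simpa [e0, e1] using h1))
  have a2 : ¬(-c 2 = 0 ∧ -c 3 = 0) := fun ⟨e2, e3⟩ => h.ne (wd_eq_zero a1
    (by simpa [neg_eq_zero.1 e2, neg_eq_zero.1 e3] using h1))
  obtain ⟨p, q, e1⟩ := exists_det a1
  obtain ⟨p', q', e2⟩ := exists_det a2
  have e3 : c 0 • u + c 1 • v = -c 2 • u' + -c 3 • v' := by linear_combination (norm := module) h1
  have f1 : Pf19.wd (c 0 • u + c 1 • v) (p • u + q • v) = Pf19.wd u v := funext fun ij => by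
    simp only [Pf19.wd, Pi.add_apply, Pi.smul_apply, smul_eq_mul]
    linear_combination (u ij.1 * v ij.2 - u ij.2 * v ij.1) * e1
  have f2 : Pf19.wd (c 0 • u + c 1 • v) (p' • u' + q' • v') = Pf19.wd u' v' := funext fun ij => by
    rw [e3]
    simp only [Pf19.wd, Pi.add_apply, Pi.smul_apply, smul_eq_mul]
    linear_combination (u' ij.1 * v' ij.2 - u' ij.2 * v' ij.1) * e2
  rw [← f1] at h ⊢
  rw [← f2] at h' ⊢
  generalize c 0 • u + c 1 • v = u0 at h h' ⊢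
  generalize p • u + q • v = u1 at h ⊢
  generalize p' • u' + q' • v' = u2 at h' ⊢
  have g1 := h.lin
  have g2 := h'.lin
  rw [ln_wd hs, smul_eq_zero_iff_right two_ne_zero] at g1 g2
  obtain ⟨e, h3, i, h4⟩ := Fintype.not_linearIndependent_iff.1 (hl ![u0, u1, u2] g1 g2)
  simp only [Fin.sum_univ_three, Matrix.cons_val] at h3
  have a3 : ¬(e 1 = 0 ∧ e 2 = 0) := fun ⟨e1, e2⟩ => h.ne (wd_eq_zero (a := e 0) (b := 0)
    (fun ⟨e0, _⟩ => h4 (by fin_cases i <;> assumption)) (by simpa [e1, e2] using h3))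
  obtain ⟨r, s, e4⟩ := exists_det a3
  have g3 : ∀ ij, e 1 * Pf19.wd u0 u1 ij + e 2 * Pf19.wd u0 u2 ij = 0 := fun ij => by
    have k1 := congrFun h3 ij.1
    have k2 := congrFun h3 ij.2
    simp only [Pi.add_apply, Pi.smul_apply, smul_eq_mul, Pi.zero_apply, Pf19.wd] at k1 k2 ⊢
    linear_combination u0 ij.1 * k2 - u0 ij.2 * k1
  intro i j
  linear_combination (s * Pf19.wd u0 u2 j + r * Pf19.wd u0 u1 j) * g3 i -
    (s * Pf19.wd u0 u2 i + r * Pf19.wd u0 u1 i) * g3 j -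
    (Pf19.wd u0 u1 i * Pf19.wd u0 u2 j - Pf19.wd u0 u1 j * Pf19.wd u0 u2 i) * e4

theorem pair_of_cr {a b : Fin 3 → ℂ} (h : cr a b ≠ 0) {s t : ℂ} (h0 : s * a 0 + t * b 0 = 0)
    (h1 : s * a 1 + t * b 1 = 0) (h2 : s * a 2 + t * b 2 = 0) : s = 0 ∧ t = 0 := by
  by_contra h3
  obtain ⟨p, q, e⟩ := exists_det h3
  refine h (funext fun i => ?_)
  fin_cases i <;> simp [cr]
  · linear_combination (p * a 2 + q * b 2) * h1 - (p * a 1 + q * b 1) * h2 -
      (a 1 * b 2 - a 2 * b 1) * e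
  · linear_combination (p * a 0 + q * b 0) * h2 - (p * a 2 + q * b 2) * h0 -
      (a 2 * b 0 - a 0 * b 2) * e
  · linear_combination (p * a 1 + q * b 1) * h0 - (p * a 0 + q * b 0) * h1 -
      (a 0 * b 1 - a 1 * b 0) * e

theorem exists_rows {c : Fin 10 → ℂ} (h : nn c ≠ 0) :
    ∃ f : Fin 3 → Fin 4, LinearIndependent ℂ fun i => AA c (f i) := by
  have key : ∀ f : Fin 3 → Fin 4, (∀ g : Fin 3 → ℂ,
      (∀ m, g 0 * AA c (f 0) m + g 1 * AA c (f 1) m + g 2 * AA c (f 2) m = 0) →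
        g 0 = 0 ∧ g 1 = 0 ∧ g 2 = 0) → LinearIndependent ℂ fun i => AA c (f i) := fun f hf =>
    Fintype.linearIndependent_iff.2 fun g hg i => by
      obtain ⟨h0, h1, h2⟩ := hf g fun m => by simpa [Fin.sum_univ_three] using congrFun hg m
      fin_cases i <;> assumption
  obtain ⟨k, hk⟩ := Function.ne_iff.1 h
  fin_cases k
  · refine ⟨![1, 2, 3], key _ fun g hg => ?_⟩
    obtain ⟨h0, h1⟩ := pair_of_cr hk (s := g 0) (t := g 1) (by simpa [AA, zz] using hg 0)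
      (by simpa [AA, zz] using hg 1) (by simpa [AA, zz] using hg 2)
    exact ⟨h0, h1, (pair_of_cr hk (s := 0) (t := g 2) (by simpa [AA, zz, h0, h1] using hg 3)
      (by simpa [AA, zz, h0, h1] using hg 4) (by simpa [AA, zz, h0, h1] using hg 5)).2⟩
  · refine ⟨![0, 1, 3], key _ fun g hg => ?_⟩
    obtain ⟨h2, h1⟩ := pair_of_cr hk (s := g 2) (t := g 1)
      (by simpa [AA, zz, add_comm] using hg 3) (by simpa [AA, zz, add_comm] using hg 4)
      (by simpa [AA, zz, add_comm] using hg 5)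
    exact ⟨(pair_of_cr hk (s := 0) (t := g 0) (by simpa [AA, zz, h2, h1] using hg 0)
      (by simpa [AA, zz, h2, h1] using hg 1) (by simpa [AA, zz, h2, h1] using hg 2)).2, h1, h2⟩
  · refine ⟨![0, 1, 2], key _ fun g hg => ?_⟩
    obtain ⟨h1, h2⟩ := pair_of_cr hk (s := g 1) (t := g 2) (by simpa [AA, zz] using hg 3)
      (by simpa [AA, zz] using hg 4) (by simpa [AA, zz] using hg 5)
    exact ⟨(pair_of_cr hk (s := g 0) (t := 0) (by simpa [AA, zz, h2, h1] using hg 0)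
      (by simpa [AA, zz, h2, h1] using hg 1) (by simpa [AA, zz, h2, h1] using hg 2)).1, h1, h2⟩

/-- the kernel of `AA c` has dimension at most three -/
theorem dep_of_ker {c : Fin 10 → ℂ} (h : nn c ≠ 0) {w : Fin 4 → Fin 6 → ℂ}
    (hw : ∀ k r, ∑ m, AA c r m * w k m = 0) : ¬LinearIndependent ℂ w := fun hi => by
  obtain ⟨f, hf⟩ := exists_rows h
  have h1 := Matrix.rank_add_rank_le_card_of_mul_eq_zero (A := Matrix.of fun i => AA c (f i))
    (B := (Matrix.of w).transpose) (Matrix.ext fun i k => hw k (f i))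
  rw [Matrix.rank_transpose, LinearIndependent.rank_matrix (M := Matrix.of w) hi,
    LinearIndependent.rank_matrix (M := Matrix.of fun i => AA c (f i)) hf] at h1
  simp at h1

/-- bilinear relations as a tensor -/
theorem exists_rel {κ : Type} [Fintype κ] (β : κ → (Fin 4 → ℂ) →ₗ[ℂ] (I2 → ℂ) →ₗ[ℂ] ℂ) :
    ∃ (r : ℕ) (B : Fin r → Fin 4 → I2 → ℂ), ∀ x P, Rel B x P ↔ ∀ a, β a x P = 0 := by
  refine ⟨_, fun a i j => β ((Fintype.equivFin κ).symm a) (Pi.single i 1) (Pi.single j 1),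
    fun x P => ?_⟩
  have h : ∀ a, β a x P = ∑ i, x i * ∑ j, β a (Pi.single i 1) (Pi.single j 1) * P j := fun a => by
    conv_lhs => rw [pi_eq_sum_univ' x, pi_eq_sum_univ' P]
    simp only [map_sum, map_smul, LinearMap.sum_apply, LinearMap.smul_apply, smul_eq_mul,
      Finset.mul_sum]
    rw [Finset.sum_comm]
    exact Finset.sum_congr rfl fun i _ => Finset.sum_congr rfl fun j _ => by ring
  simp only [h]
  exact ⟨fun H a => by simpa [ln] using H (Fintype.equivFin κ a), fun H a => H _⟩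

end Crest.Agent.X262.St91
end
end

-- ▼ part X262/St91/Nf

/-!
# Row 262, G4 / START (helper91): the geometry of the example from its normal forms

* `NF om`       : coordinates in which `S₁₄` contains the standard rational quartic curve;
* `NF.qm`       : the quartic model; `Img M N` : the image of the curve of `M` on `N`;
* `geo_of_nf`   : the data `Geo`; `w_of_mat` : the field `NF.w` from matrices.
-/

set_option autoImplicit false

open MvPolynomial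

noncomputable section

namespace Crest.Agent.X262.St91

open Crest.Agent.X262.Pf19 (Om Skew NoLine)
open Crest.Agent.X262.Mv99 (Qt)

/-- the action of a matrix on bivectors -/
def g2 (g : Fin 6 → Fin 6 → ℂ) (ij kl : I2) : ℂ := g ij.1 kl.1 * g ij.2 kl.2

theorem ln_g2 (g : Fin 6 → Fin 6 → ℂ) (u v : Fin 6 → ℂ) :
    ln (g2 g) (Pf19.wd u v) = Pf19.wd (ln g u) (ln g v) := by
  funext ⟨i, j⟩
  simp only [ln, g2, Pf19.wd, Fintype.sum_prod_type, Finset.sum_mul_sum, Algebra.algebraMap_self,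
    RingHom.id_apply, mul_sub, Finset.sum_sub_distrib]
  congr 1
  · exact Finset.sum_congr rfl fun k _ => Finset.sum_congr rfl fun l _ => by ring
  · rw [Finset.sum_comm]
    exact Finset.sum_congr rfl fun k _ => Finset.sum_congr rfl fun l _ => by ring

/-- `ln` as a linear map -/
def lL {ι κ : Type} [Fintype κ] (π : ι → κ → ℂ) : (κ → ℂ) →ₗ[ℂ] ι → ℂ where
  toFun := ln π
  map_add' u v := funext fun i => by simp [ln, mul_add, Finset.sum_add_distrib]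
  map_smul' c u := funext fun i => by simp [ln, Finset.mul_sum, mul_left_comm c]

/-- `yz` as a linear map -/
def yL : (I2 → ℂ) →ₗ[ℂ] Fin 10 → ℂ where
  toFun := yz
  map_add' u v := funext fun i => by fin_cases i <;> simp [yz] <;> ring
  map_smul' c u := funext fun i => by fin_cases i <;> simp [yz] <;> ring

/-- an entry of `AA` as a linear form -/
def aL (r : Fin 4) (m : Fin 6) : (Fin 10 → ℂ) →ₗ[ℂ] ℂ where
  toFun c := AA c r m
  map_add' u v := by fin_cases r <;> fin_cases m <;> simp [AA]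
  map_smul' c u := by fin_cases r <;> fin_cases m <;> simp [AA]

/-- the matrix of a linear map -/
def mt {ι κ : Type} [DecidableEq κ] (φ : (κ → ℂ) →ₗ[ℂ] ι → ℂ) (i : ι) (k : κ) : ℂ :=
  φ (Pi.single k 1) i

theorem ln_mt {ι κ : Type} [Fintype κ] [DecidableEq κ] (φ : (κ → ℂ) →ₗ[ℂ] ι → ℂ) (P : κ → ℂ) :
    ln (mt φ) P = φ P := by
  funext i
  conv_rhs => rw [pi_eq_sum_univ' P]
  simp [ln, mt, mul_comm]

/-- the matrix of the forms `x ↦ z_r (x) . a (t)` -/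
def zm {R : Type} [CommRing R] [Algebra ℂ R] (E : Fin 10 → Fin 4 → ℂ) (t : Fin 2 → R) (k : Fin 4) :
    Fin 3 → R := za (fun s => algebraMap ℂ R (E s k)) t

theorem za_ln (E : Fin 10 → Fin 4 → ℂ) (t : Fin 2 → ℂ) (x : Fin 4 → ℂ) (r : Fin 3) :
    za (ln E x) t r = ∑ k, x k * zm E t k r := by
  fin_cases r <;> simp [za, zm, ln, Fin.sum_univ_four] <;> ring

/-- a normal form -/
structure NF (om : Fin 6 → I2 → ℂ) where
  /-- the change of coordinates -/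
  g : Fin 6 → Fin 6 → ℂ
  /-- its inverse -/
  g' : Fin 6 → Fin 6 → ℂ
  gg' : ∀ u : Fin 6 → ℂ, ln g (ln g' u) = u
  g'g : ∀ u : Fin 6 → ℂ, ln g' (ln g u) = u
  /-- the linear space -/
  E : Fin 10 → Fin 4 → ℂ
  /-- coordinates on it -/
  p0 : Fin 4 → Fin 10 → ℂ
  pE : ∀ x : Fin 4 → ℂ, ln p0 (ln E x) = x
  w : ∀ u v : Fin 6 → ℂ, ln om (Pf19.wd u v) = 0 ↔
    yz (Pf19.wd (ln g u) (ln g v)) = ln E (ln p0 (yz (Pf19.wd (ln g u) (ln g v))))
  /-- the quartic -/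
  Γ : MvPolynomial (Fin 4) ℂ
  hΓ : ∀ x, eval x Γ = gU (ln E x)
  qt : Qt Γ
  nl : NoL Γ
  rk2 : ∀ x : Fin 4 → ℂ, x ≠ 0 → nn (ln E x) ≠ 0
  rk3 : ∀ t : Fin 2 → ℂ, t ≠ 0 → x4 (zm E t) ≠ 0

/-- the field `w` from matrices -/
theorem w_of_mat {om : Fin 6 → I2 → ℂ} {g : Fin 6 → Fin 6 → ℂ} {E : Fin 10 → Fin 4 → ℂ}
    {p0 : Fin 4 → Fin 10 → ℂ} (K : Fin 6 → Fin 10 → ℂ) (H : Fin 10 → Fin 6 → ℂ)
    (h1 : ∀ u v : Fin 6 → ℂ, ln om (Pf19.wd u v) = ln K (yz (Pf19.wd (ln g u) (ln g v))))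
    (h2 : ∀ x : Fin 4 → ℂ, ln K (ln E x) = 0)
    (h3 : ∀ c : Fin 10 → ℂ, ln E (ln p0 c) + ln H (ln K c) = c) (u v : Fin 6 → ℂ) :
    ln om (Pf19.wd u v) = 0 ↔
      yz (Pf19.wd (ln g u) (ln g v)) = ln E (ln p0 (yz (Pf19.wd (ln g u) (ln g v)))) := by
  rw [h1]
  refine ⟨fun h => ?_, fun h => by rw [h, h2]⟩
  have h4 := h3 (yz (Pf19.wd (ln g u) (ln g v)))
  rw [h, show ln H (0 : Fin 6 → ℂ) = 0 from map_zero (lL H), add_zero] at h4
  exact h4.symm

namespace NF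

variable {om : Fin 6 → I2 → ℂ} (M : NF om)

/-- the projection -/
def πL : (I2 → ℂ) →ₗ[ℂ] Fin 4 → ℂ := lL M.p0 ∘ₗ yL ∘ₗ lL (g2 M.g)

theorem πL_wd (u v : Fin 6 → ℂ) :
    M.πL (Pf19.wd u v) = ln M.p0 (yz (Pf19.wd (ln M.g u) (ln M.g v))) := by
  rw [← ln_g2]
  rfl

theorem E_πL {u v : Fin 6 → ℂ} (h : ln om (Pf19.wd u v) = 0) :
    ln M.E (M.πL (Pf19.wd u v)) = yz (Pf19.wd (ln M.g u) (ln M.g v)) := by
  rw [πL_wd, ← (M.w u v).1 h]

/-- the relations -/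
def RL (x : Fin 4 → ℂ) (P : I2 → ℂ) : Prop :=
  Par x (M.πL P) ∧ ∀ r k, ∑ m, AA (ln M.E x) r m * ln (g2 M.g) P (m, k) = 0

theorem exists_B : ∃ (r : ℕ) (B : Fin r → Fin 4 → I2 → ℂ), ∀ x P, Rel B x P ↔ M.RL x P := by
  obtain ⟨r, B, h⟩ := exists_rel (κ := Fin 4 × Fin 4 ⊕ Fin 4 × Fin 6) (Sum.elim
    (fun ij => (LinearMap.mul ℂ ℂ).compl₁₂ (LinearMap.proj ij.1) (LinearMap.proj ij.2 ∘ₗ M.πL) -
      (LinearMap.mul ℂ ℂ).compl₁₂ (LinearMap.proj ij.2) (LinearMap.proj ij.1 ∘ₗ M.πL))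
    fun rk => ∑ m, (LinearMap.mul ℂ ℂ).compl₁₂ (aL rk.1 m ∘ₗ lL M.E)
      (LinearMap.proj (m, rk.2) ∘ₗ lL (g2 M.g)))
  refine ⟨r, B, fun x P => (h x P).trans ?_⟩
  simp [RL, Par, sub_eq_zero, aL, lL]

variable {M}

theorem rl_wd {x : Fin 4 → ℂ} {u v : Fin 6 → ℂ} (h : Par x (M.πL (Pf19.wd u v)))
    (h1 : ∀ r, ∑ m, AA (ln M.E x) r m * ln M.g u m = 0)
    (h2 : ∀ r, ∑ m, AA (ln M.E x) r m * ln M.g v m = 0) : M.RL x (Pf19.wd u v) :=
  ⟨h, fun r k => by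
    have e : ∀ m, AA (ln M.E x) r m * Pf19.wd (ln M.g u) (ln M.g v) (m, k) =
        AA (ln M.E x) r m * ln M.g u m * ln M.g v k - AA (ln M.E x) r m * ln M.g v m * ln M.g u k :=
      fun m => by simp only [Pf19.wd]; ring
    simp only [ln_g2, e, Finset.sum_sub_distrib, ← Finset.sum_mul, h1, h2, zero_mul, sub_zero]⟩

theorem wd_g_ne {u v : Fin 6 → ℂ} (h : Pf19.wd u v ≠ 0) : Pf19.wd (ln M.g u) (ln M.g v) ≠ 0 :=
  fun h0 => h (by
    rw [← M.g'g u, ← M.g'g v, ← ln_g2, h0]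
    exact map_zero (lL (g2 M.g')))

theorem RL.ker {x : Fin 4 → ℂ} {u v : Fin 6 → ℂ} (h : M.RL x (Pf19.wd u v)) (h0 : Pf19.wd u v ≠ 0)
    (r : Fin 4) : ∑ m, AA (ln M.E x) r m * ln M.g u m = 0 ∧
      ∑ m, AA (ln M.E x) r m * ln M.g v m = 0 := by
  obtain ⟨⟨i, j⟩, hij⟩ := Function.ne_iff.1 (wd_g_ne (M := M) h0)
  have e : ∀ k, (∑ m, AA (ln M.E x) r m * ln M.g u m) * ln M.g v k -
      (∑ m, AA (ln M.E x) r m * ln M.g v m) * ln M.g u k = 0 := fun k => by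
    rw [← h.2 r k, ln_g2, Finset.sum_mul, Finset.sum_mul, ← Finset.sum_sub_distrib]
    exact Finset.sum_congr rfl fun m _ => by simp only [Pf19.wd]; ring
  simp only [Pf19.wd, Pi.zero_apply] at hij
  exact ⟨(mul_eq_zero.1 (by linear_combination ln M.g u i * e j - ln M.g u j * e i)).resolve_right
    hij, (mul_eq_zero.1 (by linear_combination ln M.g v i * e j - ln M.g v j * e i)).resolve_right hij⟩

end NF

/-- the two parameters of a point of the curve -/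
def tp (k : Fin 2) : (I2 → ℂ) →ₗ[ℂ] Fin 2 → ℂ :=
  LinearMap.funLeft ℂ ℂ (![![(0, 3), (0, 4)], ![(1, 5), (2, 5)]] k)

theorem hankel {u v : Fin 6 → ℂ} (h : yz (Pf19.wd u v) = 0) :
    (∀ k, Pf19.wd (aU (tp k (Pf19.wd u v))) (aV (tp k (Pf19.wd u v))) =
      tp k (Pf19.wd u v) k ^ 3 • Pf19.wd u v) ∧
    ((∀ k, tp k (Pf19.wd u v) k = 0) → Pf19.wd u v = 0) := by
  have pl : ∀ i j k l, Pf19.wd u v (i, j) * Pf19.wd u v (k, l) - Pf19.wd u v (i, k) *
      Pf19.wd u v (j, l) + Pf19.wd u v (i, l) * Pf19.wd u v (j, k) = 0 := fun i j k l => by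
    simp only [Pf19.wd]
    ring
  have sk : ∀ i j, Pf19.wd u v (i, j) = -Pf19.wd u v (j, i) := fun i j => by
    simp only [Pf19.wd]
    ring
  have s0 : ∀ i, Pf19.wd u v (i, i) = 0 := fun i => sub_self _
  generalize Pf19.wd u v = P at h pl sk s0
  have c := congrFun h
  have c0 := c 0
  have c1 := c 1
  have c2 := c 2
  have c3 := c 3
  have c4 := c 4
  have c5 := c 5
  have c6 := c 6
  have c7 := c 7
  have c8 := c 8
  have c9 := c 9
  simp [yz, sub_eq_zero] at c0 c1 c2 c3 c4 c5 c6 c7 c8 c9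
  have e1 : P (1, 4) = P (0, 5) := by linear_combination -c0 / 2 + c5 / 2
  have p1 := pl 0 1 3 4
  have p2 := pl 0 1 3 5
  have p3 := pl 0 1 4 5
  have p4 := pl 0 2 3 5
  have p5 := pl 1 2 4 5
  have p6 := pl 0 2 4 5
  rw [c3, ← c6, e1] at p1
  rw [c3, ← c6] at p2
  rw [c3, e1] at p3
  rw [sk 0 2, c2, c5] at p4
  rw [c1, ← c4, e1] at p5
  rw [sk 0 2, c2, ← c4] at p6
  have d02 : P (0, 2) = 0 := by rw [sk, c2, neg_zero]
  have d35 : P (3, 5) = 0 := by rw [sk, c8, neg_zero]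
  refine ⟨fun k => funext fun ⟨i, j⟩ => ?_, fun hk => funext fun ⟨i, j⟩ => ?_⟩
  · fin_cases k <;> fin_cases i <;> fin_cases j <;>
      simp [Pf19.wd, aU, aV, tp, s0, c1, c2, c3, c7, c8, c9, d02, d35, sk 1 0, sk 2 1, sk 4 3,
        sk 5 4, sk 3 0, sk 3 1, sk 3 2, sk 4 0, sk 4 1, sk 4 2, sk 5 0, sk 5 1, sk 5 2, c5, ← c6,
        ← c4, e1] <;>
      grind
  · have k0 : P (0, 3) = 0 := hk 0
    have k4 : P (2, 5) = 0 := hk 1
    have k2 : P (0, 5) = 0 := by simpa [k0] using p4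
    have k1 : P (0, 4) = 0 := by simpa [k0] using p1
    have k3 : P (1, 5) = 0 := by simpa [k4] using p5
    fin_cases i <;> fin_cases j <;>
      simp [s0, c1, c2, c3, c7, c8, c9, d02, d35, sk 1 0, sk 2 1, sk 4 3, sk 5 4, sk 3 0, sk 3 1,
        sk 3 2, sk 4 0, sk 4 1, sk 4 2, sk 5 0, sk 5 1, sk 5 2, c5, ← c6, ← c4, e1, k0, k1, k2, k3, k4]

theorem par_smul {ι : Type} (c : ℂ) (x : ι → ℂ) : Par x (c • x) := fun i j => by
  simp only [Pi.smul_apply, smul_eq_mul]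
  ring

theorem par_trans {ι : Type} {x y z : ι → ℂ} (h : Par x y) (h' : Par z y) (h0 : y ≠ 0) : Par x z := by
  obtain ⟨k, hk⟩ := Function.ne_iff.1 h0
  intro i j
  refine mul_right_cancel₀ (mul_ne_zero hk hk) ?_
  linear_combination z j * y k * h i k + x k * y i * h' j k - z i * y k * h j k - x k * y j * h' i k

theorem wd_a_ne {t : Fin 2 → ℂ} (ht : t ≠ 0) : Pf19.wd (aU t) (aV t) ≠ 0 := fun h => ht (by
  have h0 := congrFun h (0, 3)
  have h1 := congrFun h (2, 5)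
  simp [Pf19.wd, aU, aV] at h0 h1
  exact funext (Fin.forall_fin_two.2 ⟨h0, h1⟩))

theorem eval_aU (t : Fin 2 → ℂ) : (fun j => eval t (aU X j)) = aU t := by
  funext j
  fin_cases j <;> simp [aU]

theorem eval_aV (t : Fin 2 → ℂ) : (fun j => eval t (aV X j)) = aV t := by
  funext j
  fin_cases j <;> simp [aV]

theorem eval_wd {σ : Type} (g : Fin 6 → Fin 6 → ℂ) (U V : Fin 6 → MvPolynomial σ ℂ) (x : σ → ℂ) :
    (fun i => eval x (Pf19.wd (lr g U) (lr g V) i)) =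
      Pf19.wd (ln g fun j => eval x (U j)) (ln g fun j => eval x (V j)) := by
  funext i
  simp only [Pf19.wd, map_sub, map_mul, eval_lr]

theorem eval_lrX (E : Fin 10 → Fin 4 → ℂ) (x : Fin 4 → ℂ) (i : Fin 10) :
    eval x (lr E X i) = ln E x i := by
  simp [eval_lr]

theorem cv_eq {ι : Type} (A : ι → MvPolynomial (Fin 2) ℂ) (t : Fin 2 → ℂ) :
    cv A t = fun i => eval t (A i) := funext fun _ => coe_aeval_eq_eval t ▸ rfl

namespace NF

variable {ω : Om} (hs : Skew ω) (hl : NoLine ℂ ω) (M N : NF (omI ω))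

theorem za_of_rl {x : Fin 4 → ℂ} {t : Fin 2 → ℂ} (ht : t ≠ 0)
    (h : M.RL x (Pf19.wd (ln M.g' (aU t)) (ln M.g' (aV t)))) (r : Fin 3) :
    ∑ k, x k * zm M.E t k r = 0 := by
  have h0 : Pf19.wd (ln M.g' (aU t)) (ln M.g' (aV t)) ≠ 0 := fun h0 => wd_a_ne ht (by
    rw [← M.gg' (aU t), ← M.gg' (aV t), ← ln_g2, h0]
    exact map_zero (lL (g2 M.g)))
  have h1 := (h.ker h0 r.castSucc).1
  rw [M.gg'] at h1
  rw [← za_ln]
  fin_cases r <;> simpa [Fin.sum_univ_six, AA, aU, za] using h1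

theorem RL.smul {M : NF (omI ω)} {x : Fin 4 → ℂ} {P : I2 → ℂ} (h : M.RL x P) (c : ℂ) :
    M.RL x (c • P) :=
  ⟨fun i j => by
    simp only [map_smul, Pi.smul_apply, smul_eq_mul]
    linear_combination c * h.1 i j, fun r k => by
    rw [show ln (g2 M.g) (c • P) = c • ln (g2 M.g) P from map_smul (lL (g2 M.g)) c P]
    simp only [Pi.smul_apply, smul_eq_mul, mul_left_comm _ c, ← Finset.mul_sum, h.2, mul_zero]⟩

/-- the parameters -/
def τL (k : Fin 2) : (I2 → ℂ) →ₗ[ℂ] Fin 2 → ℂ := tp k ∘ₗ lL (g2 M.g)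

theorem sur {P : I2 → ℂ} (h : OnS (omI ω) P) (h0 : M.πL P = 0) : (∃ k, M.τL k P k ≠ 0) ∧
    ∀ k, Pf19.wd (ln M.g' (aU (M.τL k P))) (ln M.g' (aV (M.τL k P))) = M.τL k P k ^ 3 • P := by
  obtain ⟨u, v, rfl⟩ := exists_frame h
  have h1 := M.E_πL h.lin
  rw [h0, show ln M.E (0 : Fin 4 → ℂ) = 0 from map_zero (lL M.E)] at h1
  obtain ⟨h2, h3⟩ := hankel h1.symm
  have e : ∀ k, M.τL k (Pf19.wd u v) = tp k (Pf19.wd (ln M.g u) (ln M.g v)) := fun k => by
    rw [← ln_g2]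
    rfl
  simp only [e]
  refine ⟨not_forall.1 fun h4 => wd_g_ne h.ne (h3 h4), fun k => ?_⟩
  rw [← ln_g2, h2]
  refine (map_smul (lL (g2 M.g')) _ _).trans ?_
  congr 1
  change ln (g2 M.g') _ = _
  rw [ln_g2, M.g'g, M.g'g]

theorem on {P : I2 → ℂ} (h : OnS (omI ω) P) : eval (M.πL P) M.Γ = 0 := by
  obtain ⟨u, v, rfl⟩ := exists_frame h
  rw [M.hΓ, M.E_πL h.lin, gU_yz]

/-- the quartic model -/
def qm : QM (omI ω) where
  Γ := M.Γ
  qt := M.qt
  nl := M.nl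
  π := mt M.πL
  r := M.exists_B.choose
  B := M.exists_B.choose_spec.choose
  on P h := by rw [ln_mt, M.on h]
  rel P h := by
    obtain ⟨u, v, rfl⟩ := exists_frame h
    rw [ln_mt, M.exists_B.choose_spec.choose_spec]
    refine rl_wd (fun _ _ => mul_comm _ _) (fun r => ?_) fun r => ?_ <;> rw [M.E_πL h.lin]
    exacts [AA_left _ _ r, AA_right _ _ r]
  uP x P P' hx h h' r r' := by
    obtain ⟨u, v, rfl⟩ := exists_frame h
    obtain ⟨u', v', rfl⟩ := exists_frame h'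
    rw [M.exists_B.choose_spec.choose_spec] at r r'
    refine par_of_dep hs hl h h' fun hi => dep_of_ker (M.rk2 x hx)
      (w := lL M.g ∘ ![u, v, u', v']) (fun k s => ?_) (hi.map' _ (LinearMap.ker_eq_bot.2
        (Function.LeftInverse.injective M.g'g)))
    fin_cases k
    exacts [(r.ker h.ne s).1, (r.ker h.ne s).2, (r'.ker h'.ne s).1, (r'.ker h'.ne s).2]
  ux x x' P h r r' := by
    rw [M.exists_B.choose_spec.choose_spec] at r r'
    by_cases h0 : M.πL P = 0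
    · obtain ⟨⟨k, hk⟩, h1⟩ := M.sur h h0
      have ht : M.τL k P ≠ 0 := fun h2 => hk (congrFun h2 k)
      exact par_trans (x4_par _ (M.za_of_rl ht (h1 k ▸ r.smul _)))
        (x4_par _ (M.za_of_rl ht (h1 k ▸ r'.smul _))) (M.rk3 _ ht)
    · exact par_trans r.1 r'.1 h0

theorem rel_iff (x : Fin 4 → ℂ) (P : I2 → ℂ) : Rel (M.qm hs hl).B x P ↔ M.RL x P :=
  M.exists_B.choose_spec.choose_spec x P

/-- the curve -/
def cA (t : Fin 2 → ℂ) : I2 → ℂ := Pf19.wd (ln M.g' (aU t)) (ln M.g' (aV t))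

theorem πL_cA (t : Fin 2 → ℂ) : M.πL (M.cA t) = 0 := by
  rw [cA, πL_wd, M.gg', M.gg', yz_a]
  exact map_zero (lL M.p0)

theorem ons_cA {t : Fin 2 → ℂ} (ht : t ≠ 0) : OnS (omI ω) (M.cA t) := by
  refine ons_wd (fun h0 => wd_a_ne ht ?_) ((M.w _ _).2 ?_)
  · rw [← M.gg' (aU t), ← M.gg' (aV t), ← ln_g2, h0]
    exact map_zero (lL (g2 M.g))
  · rw [M.gg', M.gg', yz_a, show ln M.p0 (0 : Fin 10 → ℂ) = 0 from map_zero (lL M.p0)]
    exact (map_zero (lL M.E)).symm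

end NF

/-- the image of the curve of `M` on the model `N` is a conic -/
structure Img {ω : Om} (M N : NF (omI ω)) where
  /-- the conic -/
  Y : Fin 4 → MvPolynomial (Fin 2) ℂ
  hY : ∀ i, (Y i).IsHomogeneous 2
  /-- the equation of the common points -/
  q : MvPolynomial (Fin 2) ℂ
  q_ne : q ≠ 0
  eq : ∀ t, N.πL (M.cA t) = eval t q • cv Y t
  ne : ∀ t : Fin 2 → ℂ, t ≠ 0 → cv Y t ≠ 0

section Geo

variable {ω : Om} (hs : Skew ω) (hl : NoLine ℂ ω) {M N : NF (omI ω)}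

theorem cv_A (t : Fin 2 → ℂ) :
    cv (Pf19.wd (lr M.g' (aU X)) (lr M.g' (aV X))) t = M.cA t := by
  rw [cv_eq, eval_wd, eval_aU, eval_aV]
  rfl

theorem cv_X (t : Fin 2 → ℂ) : cv (x4 (zm M.E X)) t = x4 (zm M.E t) := by
  rw [cv_eq]
  funext i
  fin_cases i <;> simp [x4, d3, cr, zm, za]

theorem Img.rel (I : Img M N) (t : Fin 2 → ℂ) : Rel (N.qm hs hl).B (cv I.Y t) (M.cA t) := by
  intro a
  let A := Pf19.wd (lr M.g' (aU X)) (lr M.g' (aV (X : Fin 2 → MvPolynomial (Fin 2) ℂ)))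
  have e : ∀ t, eval t (∑ i, I.Y i * lr ((N.qm hs hl).B a) A i) =
      ∑ i, cv I.Y t i * ln ((N.qm hs hl).B a) (M.cA t) i := fun t => by
    simp only [map_sum, map_mul, eval_lr, ← cv_A, cv_eq, A]
  have h : X 0 * I.q * ∑ i, I.Y i * lr ((N.qm hs hl).B a) A i = 0 := MvPolynomial.funext fun t => by
    by_cases ht : t = 0
    · simp [ht]
    · have h1 := (N.qm hs hl).rel _ (M.ons_cA ht) a
      rw [show ln (N.qm hs hl).π (M.cA t) = N.πL (M.cA t) from ln_mt _ _, I.eq] at h1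
      simp only [Pi.smul_apply, smul_eq_mul, mul_assoc, ← Finset.mul_sum] at h1
      rw [map_mul, map_mul, e, mul_assoc, h1, mul_zero, map_zero]
  rw [← e, (mul_eq_zero.1 h).resolve_left (mul_ne_zero (X_ne_zero 0) I.q_ne), map_zero]

/-- the curve of a normal form -/
def Img.crv (I : Img M N) : Crv (M.qm hs hl) (N.qm hs hl) where
  A := Pf19.wd (lr M.g' (aU X)) (lr M.g' (aV X))
  X := x4 (zm M.E X)
  Y := I.Y
  hA := (hg_aU.lr _).wd (hg_aV.lr _)
  hX := Hg.x4 fun k r => by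
    have h : ∀ a b c : ℂ, (C a * (X 0 * X 0) + C b * (X 0 * X 1) + C c * (X 1 * X 1) :
        MvPolynomial (Fin 2) ℂ).IsHomogeneous 2 := fun a b c =>
      (((hg_aU 0).C_mul a).add ((hg_aU 1).C_mul b)).add ((hg_aU 2).C_mul c)
    fin_cases r <;> exact h _ _ _
  hY := I.hY
  on t ht := by
    have h : za (ln M.E (x4 (zm M.E t))) t = 0 := funext fun r => by rw [za_ln, x4_rel]; rfl
    rw [cv_A, cv_X]
    refine ⟨M.ons_cA ht, M.rk3 t ht, I.ne t ht, (M.rel_iff hs hl _ _).2 (NF.rl_wd ?_ ?_ ?_),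
      I.rel hs hl t, (ln_mt _ _).trans (M.πL_cA t), (M.hΓ _).trans (gU_of_za ht h)⟩
    · change Par _ (M.πL (M.cA t))
      rw [M.πL_cA t]
      exact fun _ _ => by simp
    · exact fun r => (M.gg' _).symm ▸ (AA_a _ t h r).1
    · exact fun r => (M.gg' _).symm ▸ (AA_a _ t h r).2
  τ k := mt (M.τL k)
  sur P h h0 := by
    obtain ⟨⟨k, hk⟩, h1⟩ := M.sur h ((ln_mt _ _).symm.trans h0)
    simp only [ln_mt, cv_A]
    exact ⟨⟨k, fun h2 => hk (congrFun h2 k)⟩, fun k => by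
      rw [NF.cA, h1 k]
      exact par_smul _ P⟩

theorem exists_dd (M : NF (omI ω)) (hd : ∃ x : Fin 4 → ℂ, dd (ln M.E x) ≠ 0) :
    ∃ x : Fin 4 → ℂ, eval x M.Γ = 0 ∧ dd (ln M.E x) ≠ 0 := by
  by_contra! h
  obtain ⟨x, hx⟩ := hd
  have e : ∀ x : Fin 4 → ℂ, eval x (dd (lr M.E X)) = dd (ln M.E x) := fun x => by
    simp [dd, nn, cr, zz, eval_lrX]
  have hD : (dd (lr M.E X) : MvPolynomial (Fin 4) ℂ).IsHomogeneous 3 := (hg_X.lr _).dd
  have hp := Brg.Cubic.prime_deh (n := 3) (by norm_num) (by norm_num) M.qt.1 M.qt.2.2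
  have h1 : Brg.Cubic.deh (dd (lr M.E X)) ∈ (Ideal.span {Brg.Cubic.deh M.Γ}).radical := by
    rw [← vanishingIdeal_zeroLocus_eq_radical (K := ℂ), mem_vanishingIdeal_iff]
    intro y hy
    have h2 := mem_zeroLocus_iff.1 hy _ (Ideal.subset_span rfl)
    change eval y _ = 0 at h2 ⊢
    rw [Brg.Cubic.eval_deh] at h2 ⊢
    rw [e, h _ h2]
  rw [((Ideal.span_singleton_prime hp.ne_zero).2 hp).radical, Ideal.mem_span_singleton] at h1
  obtain ⟨c, hc⟩ := h1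
  have h2 : X 0 ^ (c.totalDegree + 1) * dd (lr M.E X) = M.Γ * Brg.Cubic.hom c.totalDegree c := by
    refine Brg.Cubic.eq_of_deh (d := c.totalDegree + 1 + 3) ((isHomogeneous_X_pow _ _).mul hD)
      (by rw [show c.totalDegree + 1 + 3 = 4 + c.totalDegree by ring]
          exact M.qt.1.mul (Brg.Cubic.hom_isHomogeneous _ _)) ?_
    rw [map_mul, map_mul, map_pow, Brg.Cubic.deh_X0, one_pow, one_mul, Brg.Cubic.deh_hom le_rfl, hc]
  have h3 : ¬X 0 ∣ M.Γ := fun ⟨r, hr⟩ => M.qt.2.1 (by rw [hr, coeff_X_mul']; simp)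
  obtain ⟨r, hr⟩ := X_prime.pow_dvd_of_dvd_mul_left _ h3 ⟨_, h2.symm⟩
  rw [hr, mul_left_comm] at h2
  have h4 := totalDegree_le_of_dvd_of_isDomain
    ⟨r, mul_left_cancel₀ (pow_ne_zero _ (X_ne_zero 0)) h2⟩ fun h5 => hx (by rw [← e, h5, map_zero])
  rw [M.qt.1.totalDegree fun h5 => M.qt.2.1 (by rw [h5, coeff_zero])] at h4
  exact absurd (h4.trans hD.totalDegree_le) (by norm_num)

/-- **the data of the example from two normal forms** -/
def geo_of_nf (a : Img M N) (b : Img N M) (hd : ∃ x : Fin 4 → ℂ, dd (ln M.E x) ≠ 0) :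
    Geo (omI ω) := by
  have e : ∀ x : Fin 4 → ℂ,
      (fun i => eval x (Pf19.wd (lr M.g' (fU (lr M.E X))) (lr M.g' (fV (lr M.E X))) i)) =
      Pf19.wd (ln M.g' (fU (ln M.E x))) (ln M.g' (fV (ln M.E x))) := fun x => by
    rw [eval_wd]
    congr 2 <;> funext j <;> fin_cases j <;> simp [fU, fV, nn, cr, zz, eval_lrX]
  have e1 : ∀ x : Fin 4 → ℂ, eval x M.Γ = 0 → yz (Pf19.wd (ln M.g (ln M.g' (fU (ln M.E x))))
      (ln M.g (ln M.g' (fV (ln M.E x))))) = ln M.E (dd (ln M.E x) • x) := fun x hx => by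
    rw [M.gg', M.gg', yz_psi ((M.hΓ x).symm.trans hx)]
    exact (map_smul (lL M.E) _ _).symm
  have e2 : ∀ x : Fin 4 → ℂ, eval x M.Γ = 0 → M.πL (Pf19.wd (ln M.g' (fU (ln M.E x)))
      (ln M.g' (fV (ln M.E x)))) = dd (ln M.E x) • x := fun x hx => by
    rw [M.πL_wd, e1 x hx, M.pE]
  refine ⟨M.qm hs hl, N.qm hs hl, a.crv hs hl, b.crv hs hl,
    Pf19.wd (lr M.g' (fU (lr M.E X))) (lr M.g' (fV (lr M.E X))), 4,
    ((hg_X.lr _).fU.lr _).wd ((hg_X.lr _).fV.lr _), ?_, fun x hx h => ?_⟩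
  · obtain ⟨x, h1, h2⟩ := exists_dd M hd
    refine ⟨x, h1, Function.ne_iff.1 fun h => ?_⟩
    have h3 := e2 x h1
    rw [← e, h, show M.πL (fun _ => 0) = 0 from map_zero M.πL, eq_comm,
      smul_eq_zero_iff_right h2] at h3
    rw [h3, show ln M.E (0 : Fin 4 → ℂ) = 0 from map_zero (lL M.E)] at h2
    simp [dd] at h2
  · have h0 := Function.ne_iff.2 h
    rw [e] at h0 ⊢
    refine ⟨ons_wd h0 ((M.w _ _).2 (by rw [e1 x hx, M.pE])),
      (M.rel_iff hs hl _ _).2 (NF.rl_wd ?_ ?_ ?_)⟩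
    · rw [e2 x hx]
      exact par_smul _ x
    · exact fun r => (M.gg' _).symm ▸ AA_fU _ r
    · exact fun r => (M.gg' _).symm ▸ AA_fV _ r

include hs hl in
theorem cert_of_nf (hc : Top.SmCub (Pf19.cub ω)) (hn : Pf19.NoConic ℂ ω) (a : Img M N)
    (b : Img N M) (hd : ∃ x : Fin 4 → ℂ, dd (ln M.E x) ≠ 0) : CertStmt :=
  ⟨ω, hs, hc, hl, hn, ⟨geo_of_nf hs hl a b hd⟩⟩

end Geo

end Crest.Agent.X262.St91
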